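import Vale.Agent.P050.Final

namespace Vale.Agent.Results.P050.Counter17

theorem result : ∃ H : SimpleGraph (Fin 17), H.IsBipartite ∧ H.Connected ∧
    H.edgeSet.ncard = 30 ∧ ∃ (m : ℕ) (G : SimpleGraph (Fin m)), 0 < m ∧
      (Nat.card (H →g G) : ℝ) / (m : ℝ) ^ 17 <
        (2 * (G.edgeSet.ncard : ℝ) / (m : ℝ) ^ 2) ^ H.edgeSet.ncard := by
  obtain ⟨H, h1, h2, h3, m, G, hm, h⟩ := Vale.Agent.P050.counter17
  exact ⟨H, h1, h2, h3, m, G, hm, h3 ▸ h⟩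

end Vale.Agent.Results.P050.Counter17
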