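import Vale.Agent.P050.Final

namespace Vale.Agent.Results.P050.NotSidorenko

theorem result : ¬ ∀ (V : Type) [Fintype V] (H : SimpleGraph V), H.IsBipartite →
    H.edgeSet.Nonempty → ∀ (U : Type) [Fintype U] [Nonempty U] (G : SimpleGraph U),
      (2 * (G.edgeSet.ncard : ℝ) / (Fintype.card U : ℝ) ^ 2) ^ H.edgeSet.ncard ≤
        (Nat.card (H →g G) : ℝ) / (Fintype.card U : ℝ) ^ Fintype.card V := by
  intro hall
  obtain ⟨H, h1, -, h3, m, G, hm, h⟩ := Vale.Agent.P050.counter17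
  have : Nonempty (Fin m) := ⟨⟨0, hm⟩⟩
  have h4 := hall (Fin 17) H h1 (Set.nonempty_of_ncard_ne_zero (by omega)) (Fin m) G
  rw [h3, Fintype.card_fin, Fintype.card_fin] at h4
  exact absurd h (not_lt.2 h4)

end Vale.Agent.Results.P050.NotSidorenko
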